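import Mathlib

/-!
An explicit two-page drawing of `K_{m,n}` with at most `⌊m/2⌋⌊(m-1)/2⌋⌊n/2⌋⌊(n-1)/2⌋`
crossings (Zarankiewicz's drawing, read as a two-page drawing).

Spine order: first the `⌈m/2⌉` vertices `R⁺` of the first class, then the `⌈n/2⌉` vertices
`B⁺` of the second class, then the remaining vertices `R⁻` of the first class, then the
remaining vertices `B⁻` of the second class.  The edge `(i, j)` is drawn in the first page
exactly when `i` and `j` lie on the same side (`R⁺B⁺` or `R⁻B⁻`).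
-/

namespace Vale.Agent.Lib.P040.TP.Exact

/-- spine position of the `i`-th vertex of the first class -/
def rpos (m n : ℕ) (i : Fin m) : ℕ :=
  if i.val < (m + 1) / 2 then i.val else m + n + i.val

/-- spine position of the `j`-th vertex of the second class -/
def bpos (m n : ℕ) (j : Fin n) : ℕ :=
  if j.val < (n + 1) / 2 then m + j.val else 2 * m + n + j.val

/-- page of the edge `(i, j)` -/
def pg (m n : ℕ) (i : Fin m) (j : Fin n) : Bool :=
  decide (i.val < (m + 1) / 2 ↔ j.val < (n + 1) / 2)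

theorem rpos_injective (m n : ℕ) : Function.Injective (rpos m n) := by
  intro i i' h
  unfold rpos at h
  apply Fin.ext
  have h1 := i.isLt
  have h2 := i'.isLt
  split_ifs at h <;> omega

theorem bpos_injective (m n : ℕ) : Function.Injective (bpos m n) := by
  intro j j' h
  unfold bpos at h
  apply Fin.ext
  have h1 := j.isLt
  have h2 := j'.isLt
  split_ifs at h <;> omega

theorem rpos_ne_bpos (m n : ℕ) (i : Fin m) (j : Fin n) : rpos m n i ≠ bpos m n j := by
  unfold rpos bpos
  have h1 := i.isLt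
  have h2 := j.isLt
  split_ifs <;> omega

theorem between_iff (a b c : ℕ) :
    (min a b < c ∧ c < max a b) ↔ ((a < c ∧ c < b) ∨ (b < c ∧ c < a)) := by
  rcases le_total a b with h | h
  · rw [min_eq_left h, max_eq_right h]
    omega
  · rw [min_eq_right h, max_eq_left h]
    omega

/-- A crossing pair of the explicit drawing joins two vertices of the first class on the same
side and two vertices of the second class on the same side, the second ones in increasing
order. -/
theorem cross_char (m n : ℕ) (i i' : Fin m) (j j' : Fin n)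
    (hi : i < i') (hj : j ≠ j') (hp : pg m n i j = pg m n i' j')
    (hx : (min (rpos m n i) (bpos m n j) < rpos m n i' ∧
            rpos m n i' < max (rpos m n i) (bpos m n j)) ↔
          ¬ (min (rpos m n i) (bpos m n j) < bpos m n j' ∧
            bpos m n j' < max (rpos m n i) (bpos m n j))) :
    (i.val < (m + 1) / 2 ↔ i'.val < (m + 1) / 2) ∧ j.val < j'.val ∧
      (j.val < (n + 1) / 2 ↔ j'.val < (n + 1) / 2) := by
  have h1 := i.isLt
  have h2 := i'.isLt
  have h3 := j.isLt
  have h4 := j'.isLt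
  have hi' : i.val < i'.val := hi
  have hj' : j.val ≠ j'.val := fun h => hj (Fin.ext h)
  unfold pg at hp
  rw [decide_eq_decide] at hp
  rw [between_iff, between_iff] at hx
  unfold rpos bpos at hx
  by_cases c1 : i.val < (m + 1) / 2 <;> by_cases c2 : i'.val < (m + 1) / 2 <;>
    by_cases c3 : j.val < (n + 1) / 2 <;> by_cases c4 : j'.val < (n + 1) / 2 <;>
    simp only [c1, c2, c3, c4, if_true, if_false] at hx <;> omega

/-- encoding of a pair `a < a'` on the same side as a point of a `⌊m/2⌋ × ⌊(m-1)/2⌋` grid -/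
def enc (p a a' : ℕ) : ℕ × ℕ :=
  if a' < p then (a, a' - 1) else (a' - p, a - p)

theorem enc_mem (m a a' : ℕ) (h : a < a') (hm : a' < m)
    (hs : a < (m + 1) / 2 ↔ a' < (m + 1) / 2) :
    (enc ((m + 1) / 2) a a').1 < m / 2 ∧ (enc ((m + 1) / 2) a a').2 < (m - 1) / 2 := by
  unfold enc
  split_ifs with c
  · simp only
    omega
  · simp only
    omega

theorem enc_inj (m a a' c c' : ℕ) (h : a < a')
    (hs : a < (m + 1) / 2 ↔ a' < (m + 1) / 2) (h' : c < c')
    (hs' : c < (m + 1) / 2 ↔ c' < (m + 1) / 2)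
    (he : enc ((m + 1) / 2) a a' = enc ((m + 1) / 2) c c') : a = c ∧ a' = c' := by
  unfold enc at he
  split_ifs at he with c1 c2 c2
  · simp only [Prod.mk.injEq] at he
    omega
  · simp only [Prod.mk.injEq] at he
    omega
  · simp only [Prod.mk.injEq] at he
    omega
  · simp only [Prod.mk.injEq] at he
    omega

/-- the crossing pairs of the explicit drawing (positions in `ℕ`) -/
def crossSet (m n : ℕ) : Set ((Fin m × Fin n) × (Fin m × Fin n)) :=
  {p | p.1.1 < p.2.1 ∧ p.1.2 ≠ p.2.2 ∧ pg m n p.1.1 p.1.2 = pg m n p.2.1 p.2.2 ∧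
    ((min (rpos m n p.1.1) (bpos m n p.1.2) < rpos m n p.2.1 ∧
        rpos m n p.2.1 < max (rpos m n p.1.1) (bpos m n p.1.2)) ↔
      ¬ (min (rpos m n p.1.1) (bpos m n p.1.2) < bpos m n p.2.2 ∧
        bpos m n p.2.2 < max (rpos m n p.1.1) (bpos m n p.1.2)))}

/-- the encoding of a crossing pair -/
def encPair (m n : ℕ) (p : (Fin m × Fin n) × (Fin m × Fin n)) : (ℕ × ℕ) × (ℕ × ℕ) :=
  (enc ((m + 1) / 2) p.1.1.val p.2.1.val, enc ((n + 1) / 2) p.1.2.val p.2.2.val)

theorem crossSet_ncard_le (m n : ℕ) :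
    (crossSet m n).ncard ≤ (m / 2) * ((m - 1) / 2) * ((n / 2) * ((n - 1) / 2)) := by
  classical
  have hcard : ((((Finset.range (m / 2)) ×ˢ (Finset.range ((m - 1) / 2))) ×ˢ
      ((Finset.range (n / 2)) ×ˢ (Finset.range ((n - 1) / 2))) :
        Finset ((ℕ × ℕ) × (ℕ × ℕ))) : Set ((ℕ × ℕ) × (ℕ × ℕ))).ncard =
      (m / 2) * ((m - 1) / 2) * ((n / 2) * ((n - 1) / 2)) := by
    rw [Set.ncard_coe_finset]
    simp [Finset.card_product]
  rw [← hcard]
  apply Set.ncard_le_ncard_of_injOn (encPair m n)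
  · intro p hp
    obtain ⟨h1, h2, h3, h4⟩ := hp
    obtain ⟨k1, k2, k3⟩ := cross_char m n p.1.1 p.2.1 p.1.2 p.2.2 h1 h2 h3 h4
    have e1 := enc_mem m p.1.1.val p.2.1.val h1 p.2.1.isLt k1
    have e2 := enc_mem n p.1.2.val p.2.2.val k2 p.2.2.isLt k3
    simp only [encPair, Finset.coe_product, Finset.coe_range, Set.mem_prod, Set.mem_Iio]
    exact ⟨⟨e1.1, e1.2⟩, ⟨e2.1, e2.2⟩⟩
  · intro p hp p' hp' he
    obtain ⟨h1, h2, h3, h4⟩ := hp
    obtain ⟨k1, k2, k3⟩ := cross_char m n p.1.1 p.2.1 p.1.2 p.2.2 h1 h2 h3 h4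
    obtain ⟨h1', h2', h3', h4'⟩ := hp'
    obtain ⟨k1', k2', k3'⟩ := cross_char m n p'.1.1 p'.2.1 p'.1.2 p'.2.2 h1' h2' h3' h4'
    simp only [encPair, Prod.mk.injEq] at he
    obtain ⟨he1, he2⟩ := he
    have a1 := enc_inj m p.1.1.val p.2.1.val p'.1.1.val p'.2.1.val h1 k1 h1' k1' he1
    have a2 := enc_inj n p.1.2.val p.2.2.val p'.1.2.val p'.2.2.val k2 k3 k2' k3' he2
    apply Prod.ext
    · apply Prod.ext
      · exact Fin.ext a1.1
      · exact Fin.ext a2.1
    · apply Prod.ext
      · exact Fin.ext a1.2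
      · exact Fin.ext a2.2

end Vale.Agent.Lib.P040.TP.Exact
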