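import Vale.Agent.Lib.P040.TP.Gen.MainAll
import Vale.Agent.Lib.P040.TP.Exact.Upper

/-!
The explicit two-page drawing of `Exact/Upper.lean` has exactly
`⌊m/2⌋⌊(m-1)/2⌋⌊n/2⌋⌊(n-1)/2⌋` crossings: at most that many by the count in `Upper.lean`, at
least that many by the general lower bound `twoPage_all`.
-/

namespace Vale.Agent.Lib.P040.TP.Exact

theorem real_cross_eq (m n : ℕ) :
    {p : (Fin m × Fin n) × (Fin m × Fin n) |
        p.1.1 < p.2.1 ∧ p.1.2 ≠ p.2.2 ∧ pg m n p.1.1 p.1.2 = pg m n p.2.1 p.2.2 ∧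
          ((min ((rpos m n p.1.1 : ℕ) : ℝ) ((bpos m n p.1.2 : ℕ) : ℝ) < ((rpos m n p.2.1 : ℕ) : ℝ) ∧
              ((rpos m n p.2.1 : ℕ) : ℝ) <
                max ((rpos m n p.1.1 : ℕ) : ℝ) ((bpos m n p.1.2 : ℕ) : ℝ)) ↔
            ¬ (min ((rpos m n p.1.1 : ℕ) : ℝ) ((bpos m n p.1.2 : ℕ) : ℝ) <
                  ((bpos m n p.2.2 : ℕ) : ℝ) ∧
                ((bpos m n p.2.2 : ℕ) : ℝ) <
                  max ((rpos m n p.1.1 : ℕ) : ℝ) ((bpos m n p.1.2 : ℕ) : ℝ)))} =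
      crossSet m n := by
  ext p
  simp only [Set.mem_ofPred_eq, crossSet, ← Nat.cast_min, ← Nat.cast_max, Nat.cast_lt]

/-- There is a two-page drawing of `K_{m,n}` with exactly
`⌊m/2⌋⌊(m-1)/2⌋⌊n/2⌋⌊(n-1)/2⌋` crossing pairs. -/
theorem twoPage_exact (m n : ℕ) :
    ∃ (r : Fin m → ℝ) (b : Fin n → ℝ) (page : Fin m → Fin n → Bool),
      Function.Injective r ∧ Function.Injective b ∧ (∀ i j, r i ≠ b j) ∧
        Set.ncard {p : (Fin m × Fin n) × (Fin m × Fin n) |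
          p.1.1 < p.2.1 ∧ p.1.2 ≠ p.2.2 ∧ page p.1.1 p.1.2 = page p.2.1 p.2.2 ∧
            ((min (r p.1.1) (b p.1.2) < r p.2.1 ∧ r p.2.1 < max (r p.1.1) (b p.1.2)) ↔
              ¬ (min (r p.1.1) (b p.1.2) < b p.2.2 ∧ b p.2.2 < max (r p.1.1) (b p.1.2)))} =
          (m / 2) * ((m - 1) / 2) * ((n / 2) * ((n - 1) / 2)) := by
  have hr : Function.Injective (fun i : Fin m => ((rpos m n i : ℕ) : ℝ)) :=
    fun i i' h => rpos_injective m n (Nat.cast_injective h)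
  have hb : Function.Injective (fun j : Fin n => ((bpos m n j : ℕ) : ℝ)) :=
    fun j j' h => bpos_injective m n (Nat.cast_injective h)
  have hrb : ∀ (i : Fin m) (j : Fin n), ((rpos m n i : ℕ) : ℝ) ≠ ((bpos m n j : ℕ) : ℝ) :=
    fun i j h => rpos_ne_bpos m n i j (Nat.cast_injective h)
  refine ⟨fun i => ((rpos m n i : ℕ) : ℝ), fun j => ((bpos m n j : ℕ) : ℝ), pg m n,
    hr, hb, hrb, ?_⟩
  apply le_antisymm
  · rw [real_cross_eq]
    exact crossSet_ncard_le m n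
  · have h := Vale.Agent.Lib.P040.TP.Gen.twoPage_all m n
      (fun i => ((rpos m n i : ℕ) : ℝ)) (fun j => ((bpos m n j : ℕ) : ℝ)) (pg m n) hr hb hrb
    rw [Nat.mul_comm]
    exact h

end Vale.Agent.Lib.P040.TP.Exact
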